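import Mathlib
import Vale.Agent.P141.Config
import Vale.Agent.P141.Analysis

/-! P141: the trilinear Hilbert transform is unbounded at every Hoelder tuple with
`r < log 13 / log (676/3) = 0.4734...`. -/

open MeasureTheory Filter Topology
open scoped SchwartzMap ENNReal ContDiff

namespace Vale.Agent.Results.P141.SmallExponentUnbounded

open Vale.P141

theorem result :
    ∀ (p : Fin 3 → ℝ≥0∞) (r : ℝ), (∀ i, 1 < p i) → 0 < r → 1 / r = ∑ i, (p i)⁻¹.toReal →
      r * Real.log (676 / 3) < Real.log 13 →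
    ∀ C : ℝ, ∃ (f : Fin 3 → 𝓢(ℝ, ℂ)) (g : ℝ → ℂ),
      (∀ x : ℝ, Tendsto (fun q : ℝ × ℝ => ∫ t in {t : ℝ | q.1 < |t| ∧ |t| < q.2},
          f 0 (x - t) * f 1 (x - 2 * t) * f 2 (x - 3 * t) / (t : ℂ))
        ((𝓝[>] (0 : ℝ)) ×ˢ atTop) (𝓝 (g x))) ∧
      ENNReal.ofReal C * ∏ i, eLpNorm (⇑(f i)) (p i) volume
        < eLpNorm g (ENNReal.ofReal r) volume := by
  intro p r _hp hr hsum hlog C
  have hlog13 : Real.log 13 < Real.log (676 / 3) := Real.log_lt_log (by norm_num) (by norm_num)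
  have hpos13 : 0 < Real.log 13 := Real.log_pos (by norm_num)
  have hr1 : r ≤ 1 := by
    by_contra h
    push Not at h
    nlinarith
  set s : ℝ := 1 / r with hs
  have hs0 : 0 < s := by positivity
  have hsr : s * r = 1 := by rw [hs]; field_simp
  have hlogs : Real.log (676 / 3) < s * Real.log 13 := by
    rw [hs, div_mul_eq_mul_div, one_mul, lt_div_iff₀ hr]
    linarith
  set C1 : ℝ := max C 0 with hC1
  have hC10 : 0 ≤ C1 := le_max_right _ _
  obtain ⟨M, n, k, X, A, hM, hn, hk, hX, hA, hA', hT, hbig⟩ :=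
    exists_config hlogs (C1 * 40 ^ s * 240)
  set ξ : ℝ := 1 / (4 * (M : ℝ) + 2) with hξ
  -- the two families of inputs
  let mk : ℝ → Fin 3 → 𝓢(ℝ, ℂ) := fun η i =>
    (hasCompactSupport_inputFun (hA' i) (![η, -η, 0] i)).toSchwartzMap
      (contDiff_inputFun (A i) (![η, -η, 0] i))
  have htend : ∀ η x : ℝ, Tendsto (fun q : ℝ × ℝ => ∫ t in {t : ℝ | q.1 < |t| ∧ |t| < q.2},
      mk η 0 (x - t) * mk η 1 (x - 2 * t) * mk η 2 (x - 3 * t) / (t : ℂ))
      ((𝓝[>] (0 : ℝ)) ×ˢ atTop) (𝓝 (pv A η x)) := by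
    intro η x
    refine (tendsto_truncation hA' η x).congr fun q => integral_congr_ae (ae_of_all _ fun t => ?_)
    have h0 : mk η 0 (x - t) = inputFun (A 0) η (x - t) := rfl
    have h1 : mk η 1 (x - 2 * t) = inputFun (A 1) (-η) (x - 2 * t) := rfl
    have h2 : mk η 2 (x - 3 * t) = inputFun (A 2) 0 (x - 3 * t) := rfl
    simp only [h0, h1, h2, product_eq_line]
  have hnorm : ∀ η : ℝ, ∏ i, eLpNorm (⇑(mk η i)) (p i) volume ≤ ENNReal.ofReal (n ^ s) := by
    intro η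
    have hn0 : (0 : ℝ) < n := by linarith
    have hprod : n ^ s = ∏ i, n ^ (p i)⁻¹.toReal := by
      rw [hsum, Real.rpow_sum_of_pos hn0]
    rw [hprod, ENNReal.ofReal_prod_of_nonneg (fun i _ => Real.rpow_nonneg hn0.le _)]
    exact Finset.prod_le_prod' fun i _ => eLpNorm_inputFun_le (A i) _ (p i) (hA i)
  by_contra hcon
  push Not at hcon
  have hle : ∀ η : ℝ, eLpNorm (pv A η) (ENNReal.ofReal r) volume
      ≤ ENNReal.ofReal (C1 * n ^ s) := fun η => by
    calc eLpNorm (pv A η) (ENNReal.ofReal r) volume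
        ≤ ENNReal.ofReal C * ∏ i, eLpNorm (⇑(mk η i)) (p i) volume :=
          hcon (mk η) (pv A η) (htend η)
      _ ≤ ENNReal.ofReal C1 * ENNReal.ofReal (n ^ s) :=
          mul_le_mul' (ENNReal.ofReal_le_ofReal (le_max_left _ _)) (hnorm η)
      _ = _ := (ENNReal.ofReal_mul hC10).symm
  have hB0 : 0 ≤ C1 * n ^ s := mul_nonneg hC10 (Real.rpow_nonneg (by linarith) s)
  have hint : ∀ η : ℝ, (∫⁻ y, ‖pv A η y‖ₑ ^ r) ≤ ENNReal.ofReal ((C1 * n ^ s) ^ r) := by
    intro η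
    have h := hle η
    rw [eLpNorm_eq_lintegral_rpow_enorm_toReal (by simpa using hr) ENNReal.ofReal_ne_top,
      ENNReal.toReal_ofReal hr.le] at h
    have h2 := ENNReal.rpow_le_rpow h hr.le
    rwa [← ENNReal.rpow_mul, one_div, inv_mul_cancel₀ hr.ne', ENNReal.rpow_one,
      ENNReal.ofReal_rpow_of_nonneg hB0 hr.le] at h2
  set S : Set ℝ := ⋃ x ∈ X, Set.Ioc ((x : ℝ) - 1 / 40) ((x : ℝ) + 1 / 40) with hS
  set lam : ℝ := k / (240 * (M : ℝ)) with hlam
  have hlam0 : 0 ≤ lam := by positivity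
  have hSm : MeasurableSet S := Finset.measurableSet_biUnion X fun _ _ => measurableSet_Ioc
  have hlow : ∀ y, S.indicator (fun _ => ENNReal.ofReal (lam ^ r)) y
      ≤ ‖pv A ξ y‖ₑ ^ r + ‖pv A (-ξ) y‖ₑ ^ r := by
    intro y
    by_cases hy : y ∈ S
    · rw [Set.indicator_of_mem hy]
      obtain ⟨x, hx, hy'⟩ := Set.mem_iUnion₂.mp hy
      have hd : |y - (x : ℝ)| ≤ 1 / 40 := abs_le.mpr ⟨by linarith [hy'.1], by linarith [hy'.2]⟩
      have h := pv_sub_lower hM hA' (hT x hx) hd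
      calc ENNReal.ofReal (lam ^ r) = ENNReal.ofReal lam ^ r :=
            (ENNReal.ofReal_rpow_of_nonneg hlam0 hr.le).symm
        _ ≤ ‖pv A ξ y - pv A (-ξ) y‖ₑ ^ r := by
            refine ENNReal.rpow_le_rpow ?_ hr.le
            rw [← ofReal_norm]
            exact ENNReal.ofReal_le_ofReal h
        _ ≤ (‖pv A ξ y‖ₑ + ‖pv A (-ξ) y‖ₑ) ^ r := ENNReal.rpow_le_rpow enorm_sub_le hr.le
        _ ≤ _ := ENNReal.rpow_add_le_add_rpow _ _ hr.le hr1
    · rw [Set.indicator_of_notMem hy]; exact zero_le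
  have hSv : volume S = (X.card : ℝ≥0∞) * ENNReal.ofReal (1 / 20) := by
    rw [hS, measure_biUnion_finset]
    · have h20 : ∀ x : ℤ, volume (Set.Ioc ((x : ℝ) - 1 / 40) ((x : ℝ) + 1 / 40)) = ENNReal.ofReal (1 / 20) := fun x => by
        rw [Real.volume_Ioc]; congr 1; ring
      simp only [h20, Finset.sum_const, nsmul_eq_mul]
    · intro a _ b _ hab
      rw [Function.onFun, Set.disjoint_left]
      intro t ha hb
      apply hab
      have h1 : |(a : ℝ) - b| < 1 := by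
        rw [abs_lt]; constructor <;> linarith [ha.1, ha.2, hb.1, hb.2]
      have h2 : |a - b| < 1 := by exact_mod_cast h1
      exact sub_eq_zero.mp (Int.abs_lt_one_iff.mp h2)
    · exact fun _ _ => measurableSet_Ioc
  have hmeas : ∀ η : ℝ, AEMeasurable (fun y => ‖pv A η y‖ₑ ^ r) volume := fun η =>
    ((stronglyMeasurable_pv A η).enorm.pow_const r).aemeasurable
  have hmain : ENNReal.ofReal (lam ^ r * ((X.card : ℝ) * (1 / 20)))
      ≤ ENNReal.ofReal (2 * (C1 * n ^ s) ^ r) := by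
    calc ENNReal.ofReal (lam ^ r * ((X.card : ℝ) * (1 / 20)))
        = ENNReal.ofReal (lam ^ r) * volume S := by
          rw [hSv, ENNReal.ofReal_mul (Real.rpow_nonneg hlam0 r),
            ENNReal.ofReal_mul (Nat.cast_nonneg _), ENNReal.ofReal_natCast]
      _ = ∫⁻ y, S.indicator (fun _ => ENNReal.ofReal (lam ^ r)) y :=
          (lintegral_indicator_const hSm _).symm
      _ ≤ ∫⁻ y, (‖pv A ξ y‖ₑ ^ r + ‖pv A (-ξ) y‖ₑ ^ r) := lintegral_mono hlow
      _ = (∫⁻ y, ‖pv A ξ y‖ₑ ^ r) + ∫⁻ y, ‖pv A (-ξ) y‖ₑ ^ r :=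
          lintegral_add_left' (hmeas ξ) _
      _ ≤ ENNReal.ofReal ((C1 * n ^ s) ^ r) + ENNReal.ofReal ((C1 * n ^ s) ^ r) :=
          add_le_add (hint ξ) (hint (-ξ))
      _ = _ := by
          rw [← ENNReal.ofReal_add (Real.rpow_nonneg hB0 r) (Real.rpow_nonneg hB0 r)]
          congr 1; ring
  rw [ENNReal.ofReal_le_ofReal_iff (by positivity)] at hmain
  have hXn : (0 : ℝ) ≤ (X.card : ℝ) := Nat.cast_nonneg _
  have hpow := Real.rpow_le_rpow (by positivity) (show lam ^ r * (X.card : ℝ)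
      ≤ 40 * (C1 * n ^ s) ^ r by linarith) hs0.le
  rw [Real.mul_rpow (Real.rpow_nonneg hlam0 r) hXn,
    Real.mul_rpow (by norm_num) (Real.rpow_nonneg hB0 r), ← Real.rpow_mul hlam0,
    ← Real.rpow_mul hB0, mul_comm r s, hsr, Real.rpow_one, Real.rpow_one] at hpow
  have e : (X.card : ℝ) ^ s * k / (M : ℝ) = 240 * (lam * (X.card : ℝ) ^ s) := by
    rw [hlam]
    have : (M : ℝ) ≠ 0 := by
      have : (1 : ℝ) ≤ M := by exact_mod_cast hM
      linarith
    field_simp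
  rw [e] at hbig
  linarith

end Vale.Agent.Results.P141.SmallExponentUnbounded
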